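import Vale.Agent.P202.Bdl.B15
import Vale.Agent.P202.Bdl.B23
import Vale.Agent.P202.Bdl.B24

/-!
Lech's conjecture: for every flat local homomorphism `R → S` of Noetherian local rings,
`e(R) ≤ e(S)`.
-/

open Filter Topology IsLocalRing

universe u v

theorem Vale.Agent.Results.P202.Lech.result
    {R : Type u} {S : Type v} [CommRing R] [IsLocalRing R] [IsNoetherianRing R]
    [CommRing S] [IsLocalRing S] [IsNoetherianRing S]
    [Algebra R S] [IsLocalHom (algebraMap R S)] [Module.Flat R S] :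
    ∃ d s eR eS : ℕ, ringKrullDim R = d ∧ ringKrullDim S = s ∧
      Tendsto (fun N : ℕ => (d.factorial : ℝ) *
        ((Module.length R (R ⧸ maximalIdeal R ^ N)).toNat : ℝ) / (N : ℝ) ^ d) atTop
        (𝓝 (eR : ℝ)) ∧
      Tendsto (fun N : ℕ => (s.factorial : ℝ) *
        ((Module.length S (S ⧸ maximalIdeal S ^ N)).toNat : ℝ) / (N : ℝ) ^ s) atTop
        (𝓝 (eS : ℝ)) ∧ eR ≤ eS :=
  Vale.Agent.P202.Mix.lech_univ.{u, v} fun {R S} _ _ _ _ _ _ _ _ _ =>
    Vale.Agent.P202.Mix.hand_all (R := R) (S := S)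
      (fun p _ => Vale.Agent.P202.CharP.ArbK.theoremC p)
      fun p _ => Vale.Agent.P202.Mix.theoremM p
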